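import Vale.Agent.P284.H608.K.Defs
import Mathlib.Analysis.Calculus.BumpFunction.FiniteDimension
import Mathlib.Algebra.Order.BigOperators.Ring.Finset

/-!
# P284 (helper136), theorem K: smooth partitions of unity on a compact subset of a manifold given by framed
charts
-/

open scoped ContDiff Topology
open Filter Set Metric MeasureTheory

noncomputable section

namespace Vale.Agent.P284.H136.K9

open Vale.Agent.P272.K Vale.Agent.P284.H608.K

variable {n : ℕ} {M : Type} [TopologicalSpace M] [T2Space M] [MeasurableSpace M] (K : KA n M)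

/-- a bump function in a framed chart -/
theorem exists_bump (x : M) : ∃ (b : M → ℝ) (i : K.I) (O : Set M), O ∈ 𝓝 x ∧ (∀ x' ∈ O, b x' = 1) ∧
    (∀ k, ∀ z ∈ (K.e k).target, ContDiffAt ℝ ∞ (fun z => b ((K.e k).symm z)) z) ∧
    (∃ D, IsCompact D ∧ D ⊆ (K.e i).source ∧ ∀ x ∉ D, b x = 0) ∧ (∀ x, 0 ≤ b x) ∧
    ∀ x, b x ≤ 1 := by
  classical
  obtain ⟨i, hi⟩ := K.cover x
  have hz := (K.e i).map_source hi
  obtain ⟨r, hr, hb⟩ := nhds_basis_closedBall.mem_iff.1 ((K.e i).open_target.mem_nhds hz)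
  let g : ContDiffBump (K.e i x) := ⟨r / 2, r, by positivity, by linarith⟩
  set D : Set M := (K.e i).symm '' closedBall (K.e i x) r with hD
  have hDc : IsCompact D :=
    (isCompact_closedBall _ _).image_of_continuousOn ((K.e i).continuousOn_symm.mono hb)
  have hDs : D ⊆ (K.e i).source := by
    rintro _ ⟨z, hz, rfl⟩
    exact (K.e i).map_target (hb hz)
  set b : M → ℝ := fun x' => if x' ∈ (K.e i).source then g (K.e i x') else 0 with hbdef
  have hb0 : ∀ x' ∉ D, b x' = 0 := by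
    intro x' hx'
    by_cases h1 : x' ∈ (K.e i).source
    · rw [hbdef]
      simp only
      rw [if_pos h1]
      refine g.zero_of_le_dist ?_
      by_contra h2
      push Not at h2
      exact hx' ⟨K.e i x', mem_closedBall.2 h2.le, (K.e i).left_inv h1⟩
    · exact if_neg h1
  refine ⟨b, i, (K.e i).source ∩ K.e i ⁻¹' ball (K.e i x) (r / 2), ?_, ?_, ?_, ⟨D, hDc, hDs, hb0⟩,
    ?_, ?_⟩
  · exact ((K.e i).isOpen_inter_preimage isOpen_ball).mem_nhds ⟨hi, mem_ball_self (by positivity)⟩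
  · rintro x' ⟨h1, h2⟩
    rw [hbdef]
    simp only
    rw [if_pos h1]
    exact g.one_of_mem_closedBall (ball_subset_closedBall h2)
  · intro k z hzk
    have hc := (K.e k).continuousAt_symm hzk
    by_cases h1 : (K.e k).symm z ∈ (K.e i).source
    · have h2 : ContDiffAt ℝ ∞ (fun z => K.e i ((K.e k).symm z)) z :=
        ((K.hol k i z hzk h1).contDiffAt (n := ∞)).restrict_scalars ℝ
      have hg : ContDiff ℝ ∞ (g : Cm n → ℝ) := g.contDiff
      have h3 : ContDiffAt ℝ ∞ (fun z => g (K.e i ((K.e k).symm z))) z :=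
        hg.contDiffAt.comp z h2
      refine h3.congr_of_eventuallyEq ?_
      filter_upwards [hc.eventually ((K.e i).open_source.mem_nhds h1)] with z' h4
      exact if_pos h4
    · have h2 : (K.e k).symm z ∉ D := fun h => h1 (hDs h)
      refine (contDiffAt_const (c := (0 : ℝ))).congr_of_eventuallyEq ?_
      filter_upwards [hc.eventually (hDc.isClosed.isOpen_compl.mem_nhds h2)] with z' h4
      exact hb0 _ h4
  · intro x'
    rw [hbdef]
    simp only
    split_ifs
    · exact g.nonneg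
    · exact le_rfl
  · intro x'
    rw [hbdef]
    simp only
    split_ifs
    · exact g.le_one
    · exact zero_le_one

/-- **POU** -/
theorem pou {C : Set M} (hC : IsCompact C) : ∃ (J : ℕ) (f : Fin J → M → ℝ) (i : Fin J → K.I),
    (∀ j k, ∀ z ∈ (K.e k).target, ContDiffAt ℝ ∞ (fun z => f j ((K.e k).symm z)) z) ∧
    (∀ j, ∃ D, IsCompact D ∧ D ⊆ (K.e (i j)).source ∧ ∀ x ∉ D, f j x = 0) ∧
    (∀ x ∈ C, ∑ j, f j x = 1) ∧ (∀ j x, 0 ≤ f j x) ∧ (∀ j x, f j x ≤ 1) ∧ ∀ x, ∑ j, f j x ≤ 1 := by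
  classical
  choose b i O hO hb1 hbs hD hb0 hble using exists_bump K
  obtain ⟨t, -, ht⟩ := hC.elim_nhds_subcover O fun x _ => hO x
  obtain ⟨J, ⟨e⟩⟩ : ∃ J : ℕ, Nonempty (Fin J ≃ t) := ⟨_, ⟨t.equivFin.symm⟩⟩
  set c : Fin J → M → ℝ := fun j => b (e j) with hc
  have hP0 : ∀ j x, 0 ≤ ∏ l ∈ Finset.univ.filter (· < j), (1 - c l x) := fun j x =>
    Finset.prod_nonneg fun l _ => sub_nonneg.2 (hble _ x)
  have hP1 : ∀ j x, ∏ l ∈ Finset.univ.filter (· < j), (1 - c l x) ≤ 1 := fun j x =>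
    Finset.prod_le_one (fun l _ => sub_nonneg.2 (hble _ x)) fun l _ => by
      have := hb0 (e l) x
      show 1 - b (e l) x ≤ 1
      linarith
  have hsum : ∀ x, ∑ j, c j x * ∏ l ∈ Finset.univ.filter (· < j), (1 - c l x) =
      1 - ∏ j, (1 - c j x) := fun x => by
    have := Finset.prod_one_sub_ordered Finset.univ fun j => c j x
    rw [this]
    ring
  refine ⟨J, fun j x => c j x * ∏ l ∈ Finset.univ.filter (· < j), (1 - c l x), fun j => i (e j),
    ?_, ?_, ?_, ?_, ?_, ?_⟩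
  · intro j k z hz
    refine (hbs (e j) k z hz).mul ?_
    refine contDiffAt_prod fun l _ => ?_
    exact contDiffAt_const.sub (hbs (e l) k z hz)
  · intro j
    obtain ⟨D, h1, h2, h3⟩ := hD (e j)
    refine ⟨D, h1, h2, fun x hx => ?_⟩
    show b (e j) x * _ = 0
    rw [h3 x hx, zero_mul]
  · intro x hx
    rw [hsum]
    obtain ⟨y, hy, hxy⟩ := mem_iUnion₂.1 (ht hx)
    have h1 : c (e.symm ⟨y, hy⟩) x = 1 := by
      rw [hc]
      simp only
      rw [Equiv.apply_symm_apply]
      exact hb1 y x hxy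
    rw [Finset.prod_eq_zero (Finset.mem_univ (e.symm ⟨y, hy⟩)) (by rw [h1, sub_self]), sub_zero]
  · intro j x
    exact mul_nonneg (hb0 _ x) (hP0 j x)
  · intro j x
    exact mul_le_one₀ (hble _ x) (hP0 j x) (hP1 j x)
  · intro x
    rw [hsum]
    have : 0 ≤ ∏ j, (1 - c j x) := Finset.prod_nonneg fun l _ => sub_nonneg.2 (hble _ x)
    linarith

end Vale.Agent.P284.H136.K9
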