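import Vale.Agent.P284.H383.K9.Spec
import Vale.Agent.P284.H672.TX
import Vale.Agent.P284.H885.Cov

/-!
# P284 (helper136), upgrade K, module K9: reduction to injective periods (`QuoStmt`)

The covering `E / ker c` of `X`.
-/

open scoped Manifold ContDiff Topology ENNReal ComplexConjugate ComplexOrder
open Filter Set Metric MeasureTheory

noncomputable section

namespace Vale.Agent.P284.H136.K9

open Vale.Agent.P272.K Vale.Agent.P284.H894.G Vale.Agent.P284.H894.W Vale.Agent.P284.H494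
  Vale.Agent.P284.H10 Vale.Agent.P284.H224 Vale.Agent.P284.H672 Vale.Agent.P284.H885
  Vale.Agent.P284.H213.K Vale.Agent.P284.H383.K9

section
variable {n : ℕ} {X : Type} [TopologicalSpace X] [ChartedSpace (Cm n) X] {E : Type}
  [TopologicalSpace E] {p : E → X} {Γ : Type} [Group Γ] [MulAction Γ E]
  {w : Chart n X → Cm n → Matrix (Fin n) (Fin n) ℂ} {q : ℕ} {F : E → Cm q} {c : Γ → Cm q}

theorem ker_normal [Nonempty E] (hA : Per p w F c) : (ker hA).Normal := by
  refine ⟨fun a ha g => ?_⟩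
  rw [H224.mem_ker] at ha ⊢
  rw [per_add hA, per_add hA, per_inv hA, ha]
  abel

/-- the map on `E / ker c` -/
def Fq [Nonempty E] (hA : Per p w F c) : Quo E (ker hA) → Cm q :=
  desc (ker hA) F fun _ hg y => ker_smul hA hg y

theorem Fq_mk [Nonempty E] (hA : Per p w F c) (y : E) : Fq hA (mk (ker hA) y) = F y := rfl

/-- the periods on the quotient -/
def cq [Nonempty E] (hA : Per p w F c) (s : Γ ⧸ ker hA) : Cm q := c s.out

theorem cq_mk [Nonempty E] (hA : Per p w F c) (g : Γ) : cq hA (g : Γ ⧸ ker hA) = c g := by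
  obtain ⟨m, hm⟩ := QuotientGroup.mk_out_eq_mul (ker hA) g
  rw [cq, hm, per_add hA, (H224.mem_ker hA).1 m.2, add_zero]

theorem per_quo [Nonempty E] (hp : IsGalois Γ p) (hA : Per p w F c) [(ker hA).Normal] :
    Per (toX hp (ker hA)) w (Fq hA) (cq hA) where
  hol := by
    obtain ⟨B, hB⟩ := hA.hol
    exact ⟨B, holB_desc hp _ _ hB⟩
  equiv s a := by
    obtain ⟨y, rfl⟩ := mk_surjective (ker hA) a
    obtain ⟨g, rfl⟩ := QuotientGroup.mk_surjective s
    rw [cq_mk, quo_smul_mk, Fq_mk, Fq_mk, hA.equiv]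
  disc R := by
    refine (hA.disc R).subset ?_
    rintro v ⟨⟨s, hs⟩, hv⟩
    obtain ⟨g, rfl⟩ := QuotientGroup.mk_surjective s
    exact ⟨⟨g, by rw [← hs, cq_mk]⟩, hv⟩

theorem cq_inj [Nonempty E] (hA : Per p w F c) [(ker hA).Normal] (s : Γ ⧸ ker hA)
    (hs : cq hA s = 0) : s = 1 := by
  obtain ⟨g, rfl⟩ := QuotientGroup.mk_surjective s
  rw [cq_mk] at hs
  exact (QuotientGroup.eq_one_iff g).2 hs

theorem rv_quo [Nonempty E] (hp : IsGalois Γ p) (hA : Per p w F c) {t : Cm q}
    (ht : t ∈ RV n p F) : t ∈ RV n (toX hp (ker hA)) (Fq hA) := by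
  intro a ha
  obtain ⟨y, rfl⟩ := mk_surjective (ker hA) a
  exact (reg_desc hp (ker hA) _ y).2 (ht y ha)

/-- points of the quotient in one component of a regular fibre have equivalent lifts -/
theorem cl_of_quo [T2Space X] [CompactSpace X] [Nonempty E] (hp : IsGalois Γ p)
    (hA : Per p w F c) {y y' : E} (hy : F y ∈ RV n p F)
    (hs : Same (Fq hA) (mk (ker hA) y) (mk (ker hA) y')) : Cl F c y y' := by
  set C := connectedComponentIn (Fq hA ⁻¹' {Fq hA (mk (ker hA) y)}) (mk (ker hA) y) with hC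
  have hpre : IsPreconnected C := isPreconnected_connectedComponentIn
  have hsub : C ⊆ Fq hA ⁻¹' {Fq hA (mk (ker hA) y)} := connectedComponentIn_subset _ _
  have hyC : mk (ker hA) y ∈ C := mem_connectedComponentIn rfl
  have hy'C : mk (ker hA) y' ∈ C := hs
  -- the relation on the quotient
  have key := hpre.induction₂' (fun a b => (∃ z, mk (ker hA) z = a ∧ Cl F c y z) ↔
    ∃ z, mk (ker hA) z = b ∧ Cl F c y z) ?_ (fun a b c _ _ _ h1 h2 => h1.trans h2) hyC hy'C
  · obtain ⟨z, hz, hcl⟩ := key.1 ⟨y, rfl, cl_refl hA y⟩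
    obtain ⟨g, hg, rfl⟩ := mk_eq.1 hz
    exact hcl.trans hp hA (cl_ker hA hg z)
  · intro a ha
    obtain ⟨z, rfl⟩ := mk_surjective (ker hA) a
    have hFz : F z = F y := hsub ha
    obtain ⟨U, hU, U', hU', h⟩ := cl_loc (n := n) hp hA y z hy hFz
    have hmem : ∀ᶠ b in 𝓝 (mk (ker hA) z), ∃ x ∈ U', mk (ker hA) x = b := by
      rw [eventually_mk hp]
      filter_upwards [hU'] with x hx
      exact ⟨x, hx, rfl⟩
    have hex : ∀ x : E, (∃ z', mk (ker hA) z' = mk (ker hA) x ∧ Cl F c y z') ↔ Cl F c y x := by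
      intro x
      constructor
      · rintro ⟨z', h1, h2⟩
        obtain ⟨g, hg, rfl⟩ := mk_eq.1 h1
        exact h2.trans hp hA (cl_ker hA hg z')
      · intro h1
        exact ⟨x, rfl, h1⟩
    filter_upwards [eventually_nhdsWithin_of_eventually_nhds hmem, self_mem_nhdsWithin] with b h1 h2
    obtain ⟨x, hx, rfl⟩ := h1
    have hFx : F x = F y := hsub h2
    have h3 := h y (mem_of_mem_nhds hU) x hx hFx.symm
    rw [hex, hex]
    exact ⟨h3.symm, h3⟩

/-- a function on the quotient gives a function upstairs -/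
theorem exFun_quo [Nonempty E] (hp : IsGalois Γ p) (hA : Per p w F c) [(ker hA).Normal]
    {h : Quo E (ker hA) → ℂ}
    (hh : ExFun n (Γ ⧸ ker hA) (toX hp (ker hA)) (Fq hA) (cq hA) h) :
    ExFun n Γ p F c fun y => h (mk (ker hA) y) where
  loc y hy := by
    obtain ⟨f, h1, h2⟩ := hh.loc (mk (ker hA) y) ((reg_desc hp (ker hA) _ y).2 hy)
    exact ⟨f, h1, (eventually_mk hp (ker hA) y).1 h2⟩
  ext y e f he hf hfF ξ := by
    obtain ⟨φ, h1, h2⟩ := hh.ext (mk (ker hA) y) e f he hf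
      ((eventually_mk hp (ker hA) y).2 hfF) ξ
    refine ⟨φ, h1, ?_⟩
    filter_upwards [(eventually_mk hp (ker hA) y).1 h2] with y' h3 h4
    exact h3 ((reg_desc hp (ker hA) _ y').2 h4)
  ker g hg y _ := by
    show h (mk (ker hA) (g • y)) = h (mk (ker hA) y)
    rw [mk_smul hg]
  growth := by
    obtain ⟨k, hk⟩ := hh.growth
    refine ⟨k, fun y e f he hf hfF ξ => ?_⟩
    obtain ⟨C, hC⟩ := hk (mk (ker hA) y) e f he hf ((eventually_mk hp (ker hA) y).2 hfF) ξ
    refine ⟨C, ?_⟩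
    filter_upwards [(eventually_mk hp (ker hA) y).1 hC] with y' h3 h4 g
    have h5 := h3 ((reg_desc hp (ker hA) _ y').2 h4) (g : Γ ⧸ ker hA)
    rw [cq_mk] at h5
    exact h5
  trace := by
    obtain ⟨N, z, h1, h2⟩ := hh.trace
    choose l hl using fun i => mk_surjective (ker hA) (z i)
    refine ⟨N, l, fun i => ?_, fun g => ?_⟩
    · have := h1 i
      rw [← hl i] at this
      exact (reg_desc hp (ker hA) _ (l i)).1 this
    · have := h2 (g : Γ ⧸ ker hA)
      rw [← this]
      refine Finset.sum_congr rfl fun i _ => ?_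
      rw [← hl i]
      rfl
  ne := by
    obtain ⟨a, h1, h2⟩ := hh.ne
    obtain ⟨y, rfl⟩ := mk_surjective (ker hA) a
    exact ⟨y, (reg_desc hp (ker hA) _ y).1 h1, h2⟩

end

/-- **(Q)** reduction to injective periods -/
theorem quoStmt : QuoStmt := by
  intro hinj n q X _ _ _ _ _ _ w hw E Γ _ _ _ _ p hp F c hA y y' hyy hyR hne
  rcases Nat.eq_zero_or_pos q with rfl | hq
  · exact absurd (same_of_conn (conn_zero (F y)) (Subsingleton.elim _ _) (Subsingleton.elim _ _))
      (hne 1 (per_one hA))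
  have hN : (ker hA).Normal := ker_normal hA
  have : ConnectedSpace (Quo E (ker hA)) := connected_quo (ker hA)
  obtain ⟨h, hh⟩ := hinj n q X w hw (Quo E (ker hA)) (Γ ⧸ ker hA) (toX hp (ker hA))
    (isGalois_toX hp (ker hA)) (Fq hA) (cq hA) (per_quo hp hA) (cq_inj hA) hq
    (mk (ker hA) y) (mk (ker hA) y') hyy (rv_quo hp hA hyR) (fun hs => by
      obtain ⟨g, hg, h1⟩ := cl_of_quo hp hA hyR hs
      exact hne g hg h1)
  exact ⟨_, exFun_quo hp hA hh⟩

end Vale.Agent.P284.H136.K9
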