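import Vale.Agent.P284.H224.Top
import Vale.Agent.P284.H672.TS

/-!
# P284 (helper136), upgrade K, module K9: the components of the regular fibres of a proper `F`

`Reps F t r`: the points `r j` represent the components of the fibre over `t`. Over a regular value `t`
(periods injective) there are finitely many components, they are represented by continuous sections near `t`,
and their number does not depend on `t`.
-/

set_option linter.unusedSectionVars false

open scoped Manifold ContDiff Topology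
open Filter Set Metric

noncomputable section

namespace Vale.Agent.P284.H136.K9

open Vale.Agent.P272.K Vale.Agent.P284.H894.G Vale.Agent.P284.H894.W Vale.Agent.P284.H494
  Vale.Agent.P284.H10 Vale.Agent.P284.H224 Vale.Agent.P284.H672 Vale.Agent.P284.H35.S4

section
variable {E : Type} [TopologicalSpace E] {q : ℕ} {F : E → Cm q}

/-- `r` represents the components of the fibre over `t` -/
structure Reps (F : E → Cm q) {N : ℕ} (t : Cm q) (r : Fin N → E) : Prop where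
  fib : ∀ j, F (r j) = t
  inj : ∀ j k, Same F (r j) (r k) → j = k
  all : ∀ z, F z = t → ∃ j, Same F (r j) z

theorem Reps.exists_equiv {N N' : ℕ} {t : Cm q} {r : Fin N → E} {r' : Fin N' → E}
    (h : Reps F t r) (h' : Reps F t r') : ∃ e : Fin N ≃ Fin N', ∀ j, Same F (r j) (r' (e j)) := by
  choose a ha using fun j => h'.all (r j) (h.fib j)
  choose b hb using fun j => h.all (r' j) (h'.fib j)
  refine ⟨⟨a, b, fun j => ?_, fun j => ?_⟩, fun j => ?_⟩
  · exact h.inj _ _ (Sm.trans (hb (a j)) (ha j))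
  · exact h'.inj _ _ (Sm.trans (ha (b j)) (hb j))
  · exact Sm.symm (ha j)

theorem Reps.card_eq {N N' : ℕ} {t : Cm q} {r : Fin N → E} {r' : Fin N' → E}
    (h : Reps F t r) (h' : Reps F t r') : N = N' := by
  obtain ⟨e, -⟩ := h.exists_equiv h'
  simpa using Fintype.card_congr e

theorem Reps.sum_eq {M : Type*} [AddCommMonoid M] {N N' : ℕ} {t : Cm q} {r : Fin N → E}
    {r' : Fin N' → E} (h : Reps F t r) (h' : Reps F t r') (G : E → M)
    (hG : ∀ z z', F z = t → Same F z z' → G z = G z') : ∑ j, G (r j) = ∑ j, G (r' j) := by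
  obtain ⟨e, he⟩ := h.exists_equiv h'
  rw [← Equiv.sum_comp e]
  exact Finset.sum_congr rfl fun j _ => hG _ _ (h.fib j) (he j)

variable {n : ℕ} {X : Type} [TopologicalSpace X] [ChartedSpace (Cm n) X] {p : E → X} {Γ : Type}
  [Group Γ] [MulAction Γ E] {w : Chart n X → Cm n → Matrix (Fin n) (Fin n) ℂ} {c : Γ → Cm q}

theorem Reps.smul (hp : IsGalois Γ p) (hA : Per p w F c) {N : ℕ} {t : Cm q} {r : Fin N → E}
    (h : Reps F t r) (g : Γ) : Reps F (t + c g) fun j => g • r j where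
  fib j := by rw [hA.equiv, h.fib]
  inj j k hjk := by
    have h1 := same_smul hp hA g⁻¹ hjk
    rw [inv_smul_smul, inv_smul_smul] at h1
    exact h.inj j k h1
  all z hz := by
    have hE : Nonempty E := ⟨z⟩
    have h1 : F (g⁻¹ • z) = t := by
      rw [hA.equiv, hz, per_inv hA]
      abel
    obtain ⟨j, hj⟩ := h.all _ h1
    refine ⟨j, ?_⟩
    have h2 := same_smul hp hA g hj
    rwa [smul_inv_smul] at h2

variable [T2Space X] [CompactSpace X]

/-- `F` is proper if the periods are injective -/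
theorem proper_of_inj [Nonempty E] (hp : IsGalois Γ p) (hA : Per p w F c)
    (hinj : ∀ g, c g = 0 → g = 1) (R : ℝ) : IsCompact (F ⁻¹' closedBall 0 R) := by
  obtain ⟨C, hC, h1⟩ := per_compact hp hA R
  refine hC.of_isClosed_subset (isClosed_closedBall.preimage (per_cont hp.cov hA)) ?_
  intro y hy
  obtain ⟨k, hk, h2⟩ := h1 y (mem_closedBall_zero_iff.1 hy)
  rwa [hinj k hk, one_smul] at h2

/-- a neighbourhood of a fibre contains the preimage of a ball -/
theorem tube [Nonempty E] (hp : IsGalois Γ p) (hA : Per p w F c)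
    (hinj : ∀ g, c g = 0 → g = 1) (t : Cm q) {O : Set E} (hO : IsOpen O)
    (h : ∀ z, F z = t → z ∈ O) : ∃ ρ > 0, ∀ z, F z ∈ ball t ρ → z ∈ O := by
  have hFc := per_cont hp.cov hA
  have hK : IsCompact (F ⁻¹' closedBall 0 (‖t‖ + 1) \ O) :=
    (proper_of_inj hp hA hinj _).diff hO
  have hK' : IsClosed (F '' (F ⁻¹' closedBall 0 (‖t‖ + 1) \ O)) := (hK.image hFc).isClosed
  have ht : t ∈ (F '' (F ⁻¹' closedBall 0 (‖t‖ + 1) \ O))ᶜ := by
    rintro ⟨z, ⟨-, h2⟩, h3⟩
    exact h2 (h z h3)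
  obtain ⟨ρ, hρ, hb⟩ := Metric.isOpen_iff.1 hK'.isOpen_compl t ht
  refine ⟨min ρ 1, lt_min hρ one_pos, fun z hz => ?_⟩
  by_contra hzO
  have h1 : F z ∈ ball t ρ := ball_subset_ball (min_le_left _ _) hz
  refine hb h1 ⟨z, ⟨?_, hzO⟩, rfl⟩
  have h2 : dist (F z) t < 1 := lt_of_lt_of_le (mem_ball.1 hz) (min_le_right _ _)
  rw [dist_eq_norm] at h2
  show F z ∈ closedBall 0 (‖t‖ + 1)
  rw [mem_closedBall_zero_iff]
  calc ‖F z‖ = ‖t + (F z - t)‖ := by congr 1; abel
    _ ≤ ‖t‖ + ‖F z - t‖ := norm_add_le _ _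
    _ ≤ _ := by linarith

/-- finitely many components -/
theorem exists_reps [Nonempty E] (hp : IsGalois Γ p) (hA : Per p w F c)
    (hinj : ∀ g, c g = 0 → g = 1) {t : Cm q} (ht : t ∈ RV n p F) :
    ∃ (N : ℕ) (r : Fin N → E), Reps F t r := by
  have hFc := per_cont hp.cov hA
  have hK : IsCompact (F ⁻¹' {t}) := by
    refine (proper_of_inj hp hA hinj ‖t‖).of_isClosed_subset (isClosed_singleton.preimage hFc) ?_
    rintro z hz
    have : F z = t := hz
    show F z ∈ closedBall 0 ‖t‖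
    rw [this, mem_closedBall_zero_iff]
  have h1 : ∀ z : E, ∃ U : Set E, z ∈ F ⁻¹' {t} → U ∈ 𝓝 z ∧ ∀ x ∈ U, F x = t → Same F z x := by
    intro z
    by_cases hz : F z = t
    · obtain ⟨U, hU, U', hU', h⟩ := same_loc (n := n) hp hA z z (by rw [hz]; exact ht) rfl
      exact ⟨U', fun _ => ⟨hU', fun x hx hxt =>
        (h z (mem_of_mem_nhds hU) x hx (by rw [hz, hxt])).2 (Sm.refl z)⟩⟩
    · exact ⟨univ, fun h => absurd h hz⟩
  choose U hU using h1
  obtain ⟨S, hS, hcov⟩ := hK.elim_nhds_subcover U fun z hz => (hU z hz).1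
  let st : Setoid {z // F z = t} :=
    { r := fun a b => Same F a b
      iseqv := ⟨fun a => Sm.refl _, fun h => Sm.symm h, fun h h' => Sm.trans h h'⟩ }
  have hfin : Finite (Quotient st) := by
    have hS' : Finite {z : {z // F z = t} // (z : E) ∈ S} := by
      refine Finite.of_injective (β := S) (fun z => ⟨z.1.1, z.2⟩) ?_
      intro a b hab
      have := congrArg Subtype.val hab
      exact Subtype.ext (Subtype.ext this)
    refine Finite.of_surjective (fun z : {z : {z // F z = t} // (z : E) ∈ S} =>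
      (Quotient.mk st z.1)) ?_
    intro a
    obtain ⟨⟨z, hz⟩, rfl⟩ := Quotient.exists_rep a
    obtain ⟨x, hx, hzx⟩ := mem_iUnion₂.1 (hcov (show z ∈ F ⁻¹' {t} from hz))
    have hxt : F x = t := hS x hx
    exact ⟨⟨⟨x, hxt⟩, hx⟩, Quotient.sound (show Same F x z from (hU x hxt).2 z hzx hz)⟩
  have e := (Finite.equivFin (Quotient st)).symm
  refine ⟨Nat.card (Quotient st), fun j => (e j).out.1, fun j => (e j).out.2, fun j k h => ?_,
    fun z hz => ?_⟩
  · have h2 : Quotient.mk st (e j).out = Quotient.mk st (e k).out := Quotient.sound h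
    rw [Quotient.out_eq, Quotient.out_eq] at h2
    exact e.injective h2
  · refine ⟨e.symm (Quotient.mk st ⟨z, hz⟩), ?_⟩
    have h2 : Quotient.mk st (e (e.symm (Quotient.mk st ⟨z, hz⟩))).out = Quotient.mk st ⟨z, hz⟩ := by
      rw [Quotient.out_eq, Equiv.apply_symm_apply]
    exact Quotient.exact h2

variable [IsManifold 𝓘(ℂ, Cm n) ω X]

/-- representatives extend to continuous sections -/
theorem Reps.loc [Nonempty E] (hp : IsGalois Γ p) (hA : Per p w F c)
    (hinj : ∀ g, c g = 0 → g = 1) {t : Cm q} (ht : t ∈ RV n p F) {N : ℕ} {r : Fin N → E}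
    (h : Reps F t r) : ∃ ρ > 0, ball t ρ ⊆ RV n p F ∧ ∃ σ : Fin N → Cm q → E,
      (∀ j, ContinuousOn (σ j) (ball t ρ)) ∧ (∀ j, σ j t = r j) ∧
      ∀ s ∈ ball t ρ, Reps F s fun j => σ j s := by
  obtain ⟨B, hB⟩ := id hA.hol
  have hFc := per_cont hp.cov hA
  have h1 : ∀ j, ∃ ρ > 0, ∃ σ : Cm q → E, ContinuousOn σ (ball t ρ) ∧
      σ t = r j ∧ ∀ s ∈ ball t ρ, F (σ s) = s := by
    intro j
    obtain ⟨ρ, hρ, σ, h2, h3, h4⟩ := exists_section hp.cov hB (ht _ (h.fib j))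
    rw [h.fib j] at h2 h3 h4
    exact ⟨ρ, hρ, σ, h2, h3, h4⟩
  choose ρ₁ hρ₁ σ hσ hσt hσF using h1
  -- the components stay different
  have h2 : ∀ j k, ∀ᶠ s in 𝓝 t, Same F (σ j s) (σ k s) → j = k := by
    intro j k
    by_cases hjk : j = k
    · exact Eventually.of_forall fun _ _ => hjk
    obtain ⟨U, hU, U', hU', h3⟩ := same_loc (n := n) hp hA (r j) (r k)
      (by rw [h.fib]; exact ht) (by rw [h.fib, h.fib])
    have h4 : ∀ᶠ s in 𝓝 t, σ j s ∈ U :=
      ((hσ j).continuousAt (ball_mem_nhds _ (hρ₁ j))).eventually (by rw [hσt]; exact hU)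
    have h5 : ∀ᶠ s in 𝓝 t, σ k s ∈ U' :=
      ((hσ k).continuousAt (ball_mem_nhds _ (hρ₁ k))).eventually (by rw [hσt]; exact hU')
    filter_upwards [h4, h5, ball_mem_nhds t (hρ₁ j), ball_mem_nhds t (hρ₁ k)] with s h6 h7 h8 h9 h10
    exact h.inj _ _ ((h3 _ h6 _ h7 (by rw [hσF j s h8, hσF k s h9])).1 h10)
  -- they exhaust the fibre
  have h3 : ∀ z, F z = t → ∃ U : Set E, IsOpen U ∧ z ∈ U ∧ ∃ ρ > 0, ∀ x ∈ U, F x ∈ ball t ρ →
      ∃ j, Same F (σ j (F x)) x := by
    intro z hz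
    obtain ⟨j, hj⟩ := h.all z hz
    obtain ⟨U, hU, U', hU', h4⟩ := same_loc (n := n) hp hA (r j) z
      (by rw [h.fib]; exact ht) (by rw [h.fib, hz])
    have h5 : ∀ᶠ s in 𝓝 t, σ j s ∈ U :=
      ((hσ j).continuousAt (ball_mem_nhds _ (hρ₁ j))).eventually (by rw [hσt]; exact hU)
    obtain ⟨ρ, hρ, hb⟩ := Metric.eventually_nhds_iff_ball.1 (h5.and (ball_mem_nhds t (hρ₁ j)))
    obtain ⟨O, hO, hO1, hO2⟩ := mem_nhds_iff.1 hU'
    refine ⟨O, hO1, hO2, ρ, hρ, fun x hx hFx => ⟨j, ?_⟩⟩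
    obtain ⟨h6, h7⟩ := hb _ hFx
    exact (h4 _ h6 x (hO hx) (hσF j _ h7)).2 hj
  choose! U hUo hUz ρ₂ hρ₂ hU using h3
  have hK : IsCompact (F ⁻¹' {t}) := by
    refine (proper_of_inj hp hA hinj ‖t‖).of_isClosed_subset (isClosed_singleton.preimage hFc) ?_
    rintro z hz
    have : F z = t := hz
    show F z ∈ closedBall 0 ‖t‖
    rw [this, mem_closedBall_zero_iff]
  obtain ⟨S, hS, hcov⟩ := hK.elim_nhds_subcover U fun z hz => (hUo z hz).mem_nhds (hUz z hz)
  obtain ⟨ρ₃, hρ₃, htube⟩ := tube hp hA hinj t (O := ⋃ z ∈ S, U z)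
    (isOpen_biUnion fun z hz => hUo z (hS z hz)) fun z hz => hcov hz
  have h4 : ∀ᶠ s in 𝓝 t, ∀ z ∈ S, s ∈ ball t (ρ₂ z) :=
    (Finset.eventually_all S).2 fun z hz => ball_mem_nhds t (hρ₂ z (hS z hz))
  have h5 : ∀ᶠ s in 𝓝 t, ∀ j k, Same F (σ j s) (σ k s) → j = k := by
    simp only [eventually_all]
    exact h2
  have h6 : ∀ᶠ s in 𝓝 t, ∀ j, s ∈ ball t (ρ₁ j) := by
    simp only [eventually_all]
    exact fun j => ball_mem_nhds t (hρ₁ j)
  have h7 : ∀ᶠ s in 𝓝 t, s ∈ ball t ρ₃ := ball_mem_nhds t hρ₃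
  have h8 : ∀ᶠ s in 𝓝 t, s ∈ RV n p F := (rv_open hp hA).mem_nhds ht
  obtain ⟨ρ, hρ, hb⟩ := Metric.eventually_nhds_iff_ball.1 ((h4.and h5).and (h6.and (h7.and h8)))
  refine ⟨ρ, hρ, fun s hs => (hb s hs).2.2.2, σ, fun j => (hσ j).mono fun s hs => (hb s hs).2.1 j,
    hσt, fun s hs => ⟨fun j => hσF j s ((hb s hs).2.1 j), (hb s hs).1.2, fun z hz => ?_⟩⟩
  obtain ⟨z₀, hz₀, hz⟩ := mem_iUnion₂.1 (htube z (by rw [hz]; exact (hb s hs).2.2.1))
  obtain ⟨j, hj⟩ := hU z₀ (hS z₀ hz₀) z hz (by rw [‹F z = s›]; exact (hb s hs).1.1 z₀ hz₀)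
  exact ⟨j, by rwa [‹F z = s›] at hj⟩

/-- the regular values are preconnected -/
theorem rv_pre [Nonempty E] (hq : 1 ≤ q) (hp : IsGalois Γ p) (hA : Per p w F c) :
    IsPreconnected (RV n p F) := by
  have h1 : Cov (q - 1) ((RV n p F)ᶜ ∩ univ) := by
    rw [inter_univ]
    exact rv_cov hq hp hA
  have h2 := preconn_diff h1 (by simp; omega) isOpen_univ convex_univ
  rwa [← compl_eq_univ_sdiff, compl_compl] at h2

/-- the number of components is constant -/
theorem exists_card [Nonempty E] (hq : 1 ≤ q) (hp : IsGalois Γ p) (hA : Per p w F c)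
    (hinj : ∀ g, c g = 0 → g = 1) :
    ∃ N : ℕ, ∀ t ∈ RV n p F, ∃ r : Fin N → E, Reps F t r := by
  rcases (RV n p F).eq_empty_or_nonempty with h0 | ⟨t₀, ht₀⟩
  · exact ⟨0, fun t ht => by rw [h0] at ht; exact absurd ht (notMem_empty t)⟩
  obtain ⟨N, r₀, hr₀⟩ := exists_reps hp hA hinj ht₀
  refine ⟨N, fun t ht => ?_⟩
  have key := (rv_pre hq hp hA).induction₂' (fun s s' => (∃ r : Fin N → E, Reps F s r) ↔
    ∃ r : Fin N → E, Reps F s' r) ?_ (fun a b c _ _ _ h1 h2 => h1.trans h2) ht₀ ht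
  · exact key.1 ⟨r₀, hr₀⟩
  · intro s hs
    obtain ⟨M, r, hr⟩ := exists_reps hp hA hinj hs
    obtain ⟨ρ, hρ, -, σ, -, -, h1⟩ := hr.loc hp hA hinj hs
    filter_upwards [eventually_nhdsWithin_of_eventually_nhds (ball_mem_nhds s hρ)] with s' hs'
    have h2 := h1 s' hs'
    have h3 : (∃ r : Fin N → E, Reps F s r) ↔ ∃ r : Fin N → E, Reps F s' r := by
      constructor
      · rintro ⟨r', hr'⟩
        have := hr.card_eq hr'
        subst this
        exact ⟨_, h2⟩
      · rintro ⟨r', hr'⟩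
        have := h2.card_eq hr'
        subst this
        exact ⟨_, hr⟩
    exact ⟨h3, h3.symm⟩

end

end Vale.Agent.P284.H136.K9
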