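import Vale.Agent.P284.H136.K9.Rep
import Vale.Agent.P284.H383.K9.Spec

/-!
# P284 (helper136), upgrade K, module K9: subtracting the mean over the fibre (`VolStmt → Tr9Stmt`)
-/

set_option linter.unusedSectionVars false

open scoped Manifold ContDiff Topology ENNReal ComplexConjugate ComplexOrder
open Filter Set Metric MeasureTheory

noncomputable section

namespace Vale.Agent.P284.H136.K9

open Vale.Agent.P272.K Vale.Agent.P284.H894.G Vale.Agent.P284.H894.W Vale.Agent.P284.H494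
  Vale.Agent.P284.H10 Vale.Agent.P284.H224 Vale.Agent.P284.H672 Vale.Agent.P284.H35.S4
  Vale.Agent.P284.H383.K9

section
variable {E : Type} [TopologicalSpace E] {q : ℕ} {F : E → Cm q}

open Classical in
/-- the sum over the components of the fibre -/
def sumR {M : Type*} [AddCommMonoid M] (F : E → Cm q) (N : ℕ) (G : E → M) (t : Cm q) : M :=
  if h : ∃ r : Fin N → E, Reps F t r then ∑ j, G (h.choose j) else 0

theorem sumR_eq {M : Type*} [AddCommMonoid M] {N : ℕ} {t : Cm q} {r : Fin N → E}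
    (h : Reps F t r) {G : E → M} (hG : ∀ z z', F z = t → Same F z z' → G z = G z') :
    sumR F N G t = ∑ j, G (r j) := by
  have h' : ∃ r : Fin N → E, Reps F t r := ⟨r, h⟩
  rw [sumR, dif_pos h']
  exact h'.choose_spec.sum_eq h G hG

variable {n : ℕ} {X : Type} [TopologicalSpace X] [ChartedSpace (Cm n) X] {p : E → X} {Γ : Type}
  [Group Γ] [MulAction Γ E] {w : Chart n X → Cm n → Matrix (Fin n) (Fin n) ℂ} {c : Γ → Cm q}

variable (n) in
/-- `h` is locally a function of `F` over the regular values -/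
def HL (p : E → X) (F : E → Cm q) (h : E → ℂ) : Prop :=
  ∀ y, F y ∈ RV n p F → ∃ f : Cm q → ℂ, AnalyticAt ℂ f (F y) ∧ ∀ᶠ y' in 𝓝 y, h y' = f (F y')

/-- `h` is a function on the components of the regular fibres -/
theorem HL.same {h : E → ℂ} (hloc : HL n p F h) {z z' : E} (hz : F z ∈ RV n p F)
    (hs : Same F z z') : h z = h z' := by
  obtain ⟨C, hC, h1, h2, h3⟩ := sm_iff.1 (show Sm F z z' from hs)
  refine const_of_loc (F := F) hC h3 (fun x hx => ?_) h1 h2
  obtain ⟨f, -, hf⟩ := hloc x (by rw [h3 x hx]; exact hz)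
  exact ⟨f, hf⟩

theorem HL.comp {h : E → ℂ} (hloc : HL n p F h) {t : Cm q} {ρ : ℝ} (hb : ball t ρ ⊆ RV n p F)
    {σ : Cm q → E} (hσ : ContinuousOn σ (ball t ρ)) (hσF : ∀ s ∈ ball t ρ, F (σ s) = s) {s : Cm q}
    (hs : s ∈ ball t ρ) : ∃ f : Cm q → ℂ, AnalyticAt ℂ f s ∧ ∀ᶠ s' in 𝓝 s, h (σ s') = f s' := by
  obtain ⟨f, hf, hfe⟩ := hloc (σ s) (by rw [hσF s hs]; exact hb hs)
  rw [hσF s hs] at hf
  refine ⟨f, hf, ?_⟩
  have h3 : ContinuousAt σ s := hσ.continuousAt (isOpen_ball.mem_nhds hs)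
  filter_upwards [h3.eventually hfe, isOpen_ball.mem_nhds hs] with s' h5 h6
  rw [h5, hσF s' h6]

theorem HL.cont {h : E → ℂ} (hloc : HL n p F h) {t : Cm q} {ρ : ℝ} (hb : ball t ρ ⊆ RV n p F)
    {σ : Cm q → E} (hσ : ContinuousOn σ (ball t ρ)) (hσF : ∀ s ∈ ball t ρ, F (σ s) = s) {s : Cm q}
    (hs : s ∈ ball t ρ) : ContinuousAt (fun s => h (σ s)) s := by
  obtain ⟨f, hf, hfe⟩ := hloc.comp hb hσ hσF hs
  exact hf.continuousAt.congr (by filter_upwards [hfe] with s' hs'; exact hs'.symm)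

theorem HL.sum_eq {h : E → ℂ} {N : ℕ} (hloc : HL n p F h) {t : Cm q} (ht : t ∈ RV n p F) {r : Fin N → E}
    (hr : Reps F t r) {M : Type*} [AddCommMonoid M] (k : ℂ → M) :
    sumR F N (fun z => k (h z)) t = ∑ j, k (h (r j)) :=
  sumR_eq hr fun z z' hz hs => by rw [hloc.same (by rw [hz]; exact ht) hs]

variable [T2Space X] [CompactSpace X]

/-- tubes are open -/
theorem tube_open [Nonempty E] (hp : IsGalois Γ p) (hA : Per p w F c) {t : Cm q} {ρ : ℝ}
    (hb : ball t ρ ⊆ RV n p F) {σ : Cm q → E} (hσ : ContinuousOn σ (ball t ρ))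
    (hσF : ∀ s ∈ ball t ρ, F (σ s) = s) :
    IsOpen {y | F y ∈ ball t ρ ∧ Same F (σ (F y)) y} := by
  have hFc := per_cont hp.cov hA
  rw [isOpen_iff_mem_nhds]
  rintro y ⟨h1, h2⟩
  obtain ⟨U, hU, U', hU', h3⟩ := same_loc (n := n) hp hA (σ (F y)) y
    (by rw [hσF _ h1]; exact hb h1) (by rw [hσF _ h1])
  have h4 : ∀ᶠ y' in 𝓝 y, F y' ∈ ball t ρ := hFc.continuousAt.eventually (isOpen_ball.mem_nhds h1)
  have h5 : ContinuousAt (fun y' => σ (F y')) y :=
    ContinuousAt.comp (g := σ) (f := F) (hσ.continuousAt (isOpen_ball.mem_nhds h1)) hFc.continuousAt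
  filter_upwards [h4, h5.eventually hU, hU'] with y' h6 h7 h8
  exact ⟨h6, (h3 _ h7 _ h8 (hσF _ h6)).2 h2⟩

variable [IsManifold 𝓘(ℂ, Cm n) ω X]

section mass

variable [MeasurableSpace E] [BorelSpace E] {μ : Measure E} {v₀ : ℝ≥0∞} {h : E → ℂ} {N : ℕ}
  {dv : E → ℝ} {W : Cm q → ℝ≥0∞}

variable (n) in
/-- lower bound of the volume of tubes -/
def VB (p : E → X) (F : E → Cm q) (μ : Measure E) (v₀ : ℝ≥0∞) (dv : E → ℝ) : Prop :=
  ∀ (t : Cm q) (r : ℝ), 0 < r → ball t r ⊆ RV n p F →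
      ∀ σ : Cm q → E, ContinuousOn σ (ball t r) → (∀ s ∈ ball t r, F (σ s) = s) →
      ∀ g : Cm q → ℝ≥0∞, Measurable g →
        v₀ * ∫⁻ s in ball t r, g s ≤
          ∫⁻ y in {y | F y ∈ ball t r ∧ Same F (σ (F y)) y}, g (F y) * ENNReal.ofReal (dv y) ∂μ

theorem mass_loc [Nonempty E] (hp : IsGalois Γ p) (hA : Per p w F c)
    (hinj : ∀ g, c g = 0 → g = 1) (hN : ∀ t ∈ RV n p F, ∃ r : Fin N → E, Reps F t r)
    (hloc : HL n p F h) (hvol : VB n p F μ v₀ dv) (hW : Continuous W) (hWt : ∀ s, W s ≠ ⊤)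
    {t : Cm q} (ht : t ∈ RV n p F) :
    ∃ ρ > 0, ball t ρ ⊆ RV n p F ∧ ∀ D : Set (Cm q), MeasurableSet D → D ⊆ ball t ρ →
      v₀ * ∫⁻ s in D, sumR F N (fun z => ENNReal.ofReal (‖h z‖ ^ 2)) s * W s ≤
        ∫⁻ y in F ⁻¹' D, ENNReal.ofReal (‖h y‖ ^ 2 * dv y) * W (F y) ∂μ := by
  classical
  have hFc := per_cont hp.cov hA
  obtain ⟨r, hr⟩ := hN t ht
  obtain ⟨ρ, hρ, hb, σ, hσ, -, hR⟩ := hr.loc hp hA hinj ht
  refine ⟨ρ, hρ, hb, fun D hD hDb => ?_⟩
  have hσF : ∀ j, ∀ s ∈ ball t ρ, F (σ j s) = s := fun j s hs => (hR s hs).fib j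
  set G : Fin N → Cm q → ℝ≥0∞ := fun j => (ball t ρ).piecewise
    (fun s => ENNReal.ofReal (‖h (σ j s)‖ ^ 2) * W s) fun _ => 0 with hG
  have hGm : ∀ j, Measurable (G j) := by
    intro j
    refine ContinuousOn.measurable_piecewise ?_ continuousOn_const measurableSet_ball
    intro s hs
    have h1 := hloc.cont hb (hσ j) (hσF j) hs
    have h2 : ContinuousAt (fun s => ENNReal.ofReal (‖h (σ j s)‖ ^ 2)) s :=
      ENNReal.continuous_ofReal.continuousAt.comp (h1.norm.pow 2)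
    have h3 : ContinuousAt (fun s => ENNReal.ofReal (‖h (σ j s)‖ ^ 2) * W s) s :=
      ENNReal.Tendsto.mul h2 (Or.inr (hWt s)) hW.continuousAt (Or.inr ENNReal.ofReal_ne_top)
    exact h3.continuousWithinAt
  have hGeq : ∀ j, ∀ s ∈ ball t ρ, G j s = ENNReal.ofReal (‖h (σ j s)‖ ^ 2) * W s :=
    fun j s hs => piecewise_eq_of_mem _ _ _ hs
  -- the left side
  have hL : v₀ * ∫⁻ s in D, sumR F N (fun z => ENNReal.ofReal (‖h z‖ ^ 2)) s * W s =
      ∑ j, v₀ * ∫⁻ s in ball t ρ, D.indicator (G j) s := by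
    rw [← Finset.mul_sum]
    congr 1
    rw [← lintegral_finsetSum _ fun j _ => (hGm j).indicator hD]
    have h1 : ∀ s, ∑ j, D.indicator (G j) s = D.indicator (fun s => ∑ j, G j s) s := by
      intro s
      by_cases hs : s ∈ D
      · rw [indicator_of_mem hs]
        exact Finset.sum_congr rfl fun j _ => by rw [indicator_of_mem hs]
      · rw [indicator_of_notMem hs]
        exact Finset.sum_eq_zero fun j _ => indicator_of_notMem hs _
    simp only [h1]
    rw [lintegral_indicator hD, Measure.restrict_restrict hD, inter_eq_left.2 hDb]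
    refine setLIntegral_congr_fun hD fun s hs => ?_
    show sumR F N (fun z => ENNReal.ofReal (‖h z‖ ^ 2)) s * W s = ∑ j, G j s
    rw [hloc.sum_eq (hb (hDb hs)) (hR s (hDb hs)) fun a => ENNReal.ofReal (‖a‖ ^ 2),
      Finset.sum_mul]
    exact Finset.sum_congr rfl fun j _ => (hGeq j s (hDb hs)).symm
  set T : Fin N → Set E := fun j => {y | F y ∈ ball t ρ ∧ Same F (σ j (F y)) y} with hT
  have hTm : ∀ j, MeasurableSet (T j) := fun j =>
    (tube_open hp hA hb (hσ j) (hσF j)).measurableSet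
  have hTd : ∀ j k, j ≠ k → Disjoint (T j) (T k) := by
    intro j k hjk
    rw [Set.disjoint_left]
    rintro y ⟨h1, h2⟩ ⟨-, h3⟩
    exact hjk ((hR _ h1).inj j k (Sm.trans h2 (Sm.symm h3)))
  set Φ : E → ℝ≥0∞ := fun y => ENNReal.ofReal (‖h y‖ ^ 2 * dv y) * W (F y) with hΦ
  have hDE : MeasurableSet (F ⁻¹' D) := hFc.measurable hD
  rw [hL]
  calc ∑ j, v₀ * ∫⁻ s in ball t ρ, D.indicator (G j) s
      ≤ ∑ j, ∫⁻ y in T j, (F ⁻¹' D).indicator Φ y ∂μ := by
        refine Finset.sum_le_sum fun j _ => ?_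
        refine (hvol t ρ hρ hb (σ j) (hσ j) (hσF j) _ ((hGm j).indicator hD)).trans ?_
        refine le_of_eq (setLIntegral_congr_fun (hTm j) fun y hy => ?_)
        show D.indicator (G j) (F y) * ENNReal.ofReal (dv y) = (F ⁻¹' D).indicator Φ y
        by_cases hs : F y ∈ D
        · rw [indicator_of_mem hs, indicator_of_mem (show y ∈ F ⁻¹' D from hs), hGeq j _ hy.1, hΦ]
          have h1 : h (σ j (F y)) = h y :=
            hloc.same (by rw [hσF j _ hy.1]; exact hb hy.1) hy.2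
          simp only
          rw [h1, ENNReal.ofReal_mul (by positivity)]
          ring
        · rw [indicator_of_notMem hs, indicator_of_notMem (show y ∉ F ⁻¹' D from hs), zero_mul]
    _ = ∫⁻ y in ⋃ j ∈ Finset.univ, T j, (F ⁻¹' D).indicator Φ y ∂μ := by
        rw [lintegral_biUnion_finset (fun j _ k _ hjk => hTd j k hjk) fun j _ => hTm j]
    _ ≤ ∫⁻ y, (F ⁻¹' D).indicator Φ y ∂μ := setLIntegral_le_lintegral _ _
    _ = ∫⁻ y in F ⁻¹' D, Φ y ∂μ := lintegral_indicator hDE _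

theorem mass_glob [Nonempty E] (hp : IsGalois Γ p) (hA : Per p w F c)
    (hinj : ∀ g, c g = 0 → g = 1) (hN : ∀ t ∈ RV n p F, ∃ r : Fin N → E, Reps F t r)
    (hloc : HL n p F h) (hvol : VB n p F μ v₀ dv) (hW : Continuous W) (hWt : ∀ s, W s ≠ ⊤) :
    v₀ * ∫⁻ s in RV n p F, sumR F N (fun z => ENNReal.ofReal (‖h z‖ ^ 2)) s * W s ≤
        ∫⁻ y in F ⁻¹' RV n p F, ENNReal.ofReal (‖h y‖ ^ 2 * dv y) * W (F y) ∂μ := by
  have hFc := per_cont hp.cov hA
  rcases (RV n p F).eq_empty_or_nonempty with h0 | ⟨t₀, ht₀⟩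
  · rw [h0]
    simp
  choose! ρ hρ hb hm using fun t (ht : t ∈ RV n p F) =>
    mass_loc hp hA hinj hN hloc hvol hW hWt ht
  obtain ⟨C, hCs, hCc, hCcov⟩ := TopologicalSpace.countable_cover_nhdsWithin
    (f := fun t => ball t (ρ t)) (s := RV n p F) fun t ht =>
      mem_nhdsWithin_of_mem_nhds (ball_mem_nhds t (hρ t ht))
  have hCne : C.Nonempty := by
    rw [nonempty_iff_ne_empty]
    rintro rfl
    have := hCcov ht₀
    simp at this
  obtain ⟨a, ha⟩ := hCc.exists_eq_range hCne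
  have haR : ∀ i, a i ∈ RV n p F := fun i => hCs (by rw [ha]; exact mem_range_self i)
  set B : ℕ → Set (Cm q) := fun i => ball (a i) (ρ (a i)) with hB
  have hU : ⋃ i, disjointed B i = RV n p F := by
    rw [iUnion_disjointed]
    refine Subset.antisymm (iUnion_subset fun i => hb _ (haR i)) ?_
    intro s hs
    obtain ⟨x, hx, hsx⟩ := mem_iUnion₂.1 (hCcov hs)
    rw [ha] at hx
    obtain ⟨i, rfl⟩ := hx
    exact mem_iUnion.2 ⟨i, hsx⟩
  have hDm : ∀ i, MeasurableSet (disjointed B i) := fun i =>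
    MeasurableSet.disjointed (fun _ => measurableSet_ball) i
  have hDd : Pairwise (Function.onFun Disjoint (disjointed B)) := disjoint_disjointed B
  rw [← hU, lintegral_iUnion hDm hDd, preimage_iUnion, lintegral_iUnion
    (fun i => hFc.measurable (hDm i)) (fun i j hij => (hDd hij).preimage F), ← ENNReal.tsum_mul_left]
  exact ENNReal.tsum_le_tsum fun i => hm (a i) (haR i) _ (hDm i) (disjointed_subset B i)

end mass

/-! ### the function -/

variable {h : E → ℂ} {N : ℕ}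

/-- the mean over the components of the fibre -/
def avg (F : E → Cm q) (N : ℕ) (h : E → ℂ) (t : Cm q) : ℂ := (N : ℂ)⁻¹ * sumR F N h t

/-- the dominating function -/
def sS (n : ℕ) [ChartedSpace (Cm n) X] (p : E → X) (F : E → Cm q) (N : ℕ) (h : E → ℂ)
    (t : Cm q) : ℝ≥0∞ :=
  open Classical in if t ∈ RV n p F then
    4 * sumR F N (fun z => ENNReal.ofReal (‖h z‖ ^ 2)) t else ⊤

theorem avg_loc [Nonempty E] (hp : IsGalois Γ p) (hA : Per p w F c)
    (hinj : ∀ g, c g = 0 → g = 1) (hN : ∀ t ∈ RV n p F, ∃ r : Fin N → E, Reps F t r)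
    (hloc : HL n p F h) {t : Cm q} (ht : t ∈ RV n p F) :
    ∃ f : Cm q → ℂ, AnalyticAt ℂ f t ∧ ∀ᶠ s in 𝓝 t, avg F N h s = f s := by
  obtain ⟨r, hr⟩ := hN t ht
  obtain ⟨ρ, hρ, hb, σ, hσ, -, hR⟩ := hr.loc hp hA hinj ht
  have hσF : ∀ j, ∀ s ∈ ball t ρ, F (σ j s) = s := fun j s hs => (hR s hs).fib j
  choose f hf hfe using fun j => hloc.comp hb (hσ j) (hσF j) (mem_ball_self hρ)
  refine ⟨fun s => (N : ℂ)⁻¹ * ∑ j, f j s,
    analyticAt_const.mul (Finset.analyticAt_fun_sum _ fun j _ => hf j), ?_⟩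
  have h1 : ∀ᶠ s in 𝓝 t, ∀ j, h (σ j s) = f j s := by
    simp only [eventually_all]
    exact hfe
  filter_upwards [h1, ball_mem_nhds t hρ] with s h2 h3
  rw [avg, hloc.sum_eq (hb h3) (hR s h3) fun a => a]
  simp only [h2]

theorem sS_meas [Nonempty E] (hp : IsGalois Γ p) (hA : Per p w F c)
    (hinj : ∀ g, c g = 0 → g = 1) (hN : ∀ t ∈ RV n p F, ∃ r : Fin N → E, Reps F t r)
    (hloc : HL n p F h) : Measurable (sS n p F N h) := by
  classical
  have h1 : sS n p F N h = (RV n p F).piecewise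
      (fun t => 4 * sumR F N (fun z => ENNReal.ofReal (‖h z‖ ^ 2)) t) fun _ => ⊤ := by
    funext t
    unfold sS Set.piecewise
    congr
  rw [h1]
  refine ContinuousOn.measurable_piecewise ?_ continuousOn_const (rv_open hp hA).measurableSet
  intro t ht
  obtain ⟨r, hr⟩ := hN t ht
  obtain ⟨ρ, hρ, hb, σ, hσ, -, hR⟩ := hr.loc hp hA hinj ht
  have hσF : ∀ j, ∀ s ∈ ball t ρ, F (σ j s) = s := fun j s hs => (hR s hs).fib j
  have h2 : ContinuousAt (fun s => 4 * ∑ j, ENNReal.ofReal (‖h (σ j s)‖ ^ 2)) t := by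
    refine ContinuousAt.comp (g := fun x : ℝ≥0∞ => 4 * x)
      (ENNReal.continuous_const_mul (by simp)).continuousAt ?_
    refine tendsto_finsetSum _ fun j _ => ?_
    exact ENNReal.continuous_ofReal.continuousAt.comp
      ((hloc.cont hb (hσ j) (hσF j) (mem_ball_self hρ)).norm.pow 2)
  refine (h2.congr ?_).continuousWithinAt
  filter_upwards [ball_mem_nhds t hρ] with s hs
  rw [hloc.sum_eq (hb hs) (hR s hs) fun a => ENNReal.ofReal (‖a‖ ^ 2)]

theorem h0_le (hN : ∀ t ∈ RV n p F, ∃ r : Fin N → E, Reps F t r)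
    (hloc : HL n p F h) {y : E} (hy : F y ∈ RV n p F) :
    ENNReal.ofReal (‖h y - avg F N h (F y)‖ ^ 2) ≤ sS n p F N h (F y) := by
  obtain ⟨r, hr⟩ := hN _ hy
  rw [sS, if_pos hy, hloc.sum_eq hy hr fun a => ENNReal.ofReal (‖a‖ ^ 2), avg,
    hloc.sum_eq hy hr fun a => a]
  set S : ℝ := ∑ j, ‖h (r j)‖ ^ 2 with hS
  have hS0 : 0 ≤ S := Finset.sum_nonneg fun _ _ => by positivity
  have h1 : ∀ j, ‖h (r j)‖ ≤ Real.sqrt S := by
    intro j
    refine Real.le_sqrt_of_sq_le ?_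
    exact Finset.single_le_sum (f := fun j => ‖h (r j)‖ ^ 2) (fun _ _ => by positivity)
      (Finset.mem_univ j)
  have h2 : ‖h y‖ ≤ Real.sqrt S := by
    obtain ⟨j, hj⟩ := hr.all y rfl
    rw [← hloc.same (by rw [hr.fib]; exact hy) hj]
    exact h1 j
  have h3 : ‖(N : ℂ)⁻¹ * ∑ j, h (r j)‖ ≤ Real.sqrt S := by
    rw [norm_mul, norm_inv, Complex.norm_natCast]
    rcases Nat.eq_zero_or_pos N with rfl | hN0
    · simp
    · have h4 : ‖∑ j, h (r j)‖ ≤ N * Real.sqrt S := by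
        refine (norm_sum_le _ _).trans ((Finset.sum_le_sum fun j _ => h1 j).trans ?_)
        rw [Finset.sum_const, Finset.card_univ, Fintype.card_fin, nsmul_eq_mul]
      have h5 : (0 : ℝ) < N := by exact_mod_cast hN0
      calc (N : ℝ)⁻¹ * ‖∑ j, h (r j)‖ ≤ (N : ℝ)⁻¹ * (N * Real.sqrt S) :=
            mul_le_mul_of_nonneg_left h4 (by positivity)
        _ = Real.sqrt S := by field_simp
  have h6 : ‖h y - (N : ℂ)⁻¹ * ∑ j, h (r j)‖ ≤ 2 * Real.sqrt S := by
    refine (norm_sub_le _ _).trans ?_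
    linarith
  have h7 : ‖h y - (N : ℂ)⁻¹ * ∑ j, h (r j)‖ ^ 2 ≤ 4 * S := by
    calc _ ≤ (2 * Real.sqrt S) ^ 2 := pow_le_pow_left₀ (norm_nonneg _) h6 2
      _ = 4 * S := by rw [mul_pow, Real.sq_sqrt hS0]; norm_num
  refine (ENNReal.ofReal_le_ofReal h7).trans (le_of_eq ?_)
  rw [ENNReal.ofReal_mul (by norm_num), hS, ENNReal.ofReal_sum_of_nonneg fun _ _ => by positivity]
  norm_num

end

/-- **(TR)** from **(VOL)** -/
theorem tr_of (hV : VolStmt) : Tr9Stmt := by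
  intro n q X _ _ _ _ _ _ w hw E Γ _ _ _ _ _ _ p hp F c hA hinj hq μ hμ y y' hyy hyR h hh hne
  have hex : ∃ y, Reg (n := n) p F y := ⟨y, hyR y rfl⟩
  have hE : Nonempty E := ⟨y⟩
  obtain ⟨v₀, hv₀, hvol⟩ := hV n q X w hw E Γ p hp F c hA hinj hq hex μ hμ
  obtain ⟨N, hN⟩ := exists_card (n := n) hq hp hA hinj
  have hloc : HL n p F h := hh.loc
  obtain ⟨k, hk⟩ := hh.mass
  set W : Cm q → ℝ≥0∞ := fun s => ENNReal.ofReal (((1 + ‖s‖) ^ k)⁻¹) with hW
  have hWc : Continuous W := by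
    refine ENNReal.continuous_ofReal.comp (Continuous.inv₀ (by fun_prop) fun s => ?_)
    positivity
  have hmass := mass_glob (dv := dV hp.cov w F) hp hA hinj hN hloc hvol hWc
    fun s => ENNReal.ofReal_ne_top
  set M := ∫⁻ y in F ⁻¹' RV n p F, ENNReal.ofReal (‖h y‖ ^ 2 * dV hp.cov w F y) * W (F y) ∂μ with hM
  have hMt : M ≠ ⊤ := hk.ne
  set I := ∫⁻ s in RV n p F, sumR F N (fun z => ENNReal.ofReal (‖h z‖ ^ 2)) s * W s with hI
  have hIM : I ≤ M / v₀ := by
    rw [ENNReal.le_div_iff_mul_le (Or.inl hv₀) (Or.inr hMt), mul_comm]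
    exact hmass
  have hIt : I ≠ ⊤ := ne_top_of_le_ne_top (ENNReal.div_ne_top hMt hv₀) hIM
  have hVo := rv_open (n := n) hp hA
  have hVc := rv_cov (n := n) hq hp hA
  set h₀ : E → ℂ := fun z => h z - avg F N h (F z) with hh₀
  have hFc := per_cont hp.cov hA
  have hl0 : ∀ z, F z ∈ RV n p F → ∃ f : Cm q → ℂ, AnalyticAt ℂ f (F z) ∧
      ∀ᶠ z' in 𝓝 z, h₀ z' = f (F z') := by
    intro z hz
    obtain ⟨f, hf, hfe⟩ := hloc z hz
    obtain ⟨f₁, hf₁, hfe₁⟩ := avg_loc hp hA hinj hN hloc hz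
    refine ⟨fun s => f s - f₁ s, hf.sub hf₁, ?_⟩
    filter_upwards [hfe, hFc.continuousAt.eventually hfe₁] with z' h1 h2
    rw [hh₀]
    simp only
    rw [h1, h2]
  have hle : ∀ z, F z ∈ RV n p F → ENNReal.ofReal (‖h₀ z‖ ^ 2) ≤ sS n p F N h (F z) :=
    fun z hz => h0_le hN hloc hz
  have hs1 : ∀ t, t ∉ RV n p F → sS n p F N h t = ⊤ := fun t ht => by rw [sS, if_neg ht]
  have hsm := sS_meas hp hA hinj hN hloc
  have hsi : ∀ R : ℝ, 0 ≤ R → ∫⁻ t in ball (0 : Cm q) R, sS n p F N h t ≤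
      (4 * I) * ENNReal.ofReal ((1 + R) ^ k) := by
    intro R hR
    have hnull : volume (RV n p F)ᶜ = 0 := by
      have h1 := null_of_cov hVc (by simp; omega)
      exact (Measure.absolutelyContinuous_isAddHaarMeasure volume Measure.addHaar) h1
    have h1 : ∫⁻ t in ball (0 : Cm q) R, sS n p F N h t ≤
        (∫⁻ t in ball (0 : Cm q) R ∩ RV n p F, sS n p F N h t) +
        ∫⁻ t in (RV n p F)ᶜ, sS n p F N h t := by
      refine le_trans (lintegral_mono_set (t := (ball (0 : Cm q) R ∩ RV n p F) ∪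
        (RV n p F)ᶜ) fun t ht => ?_) (lintegral_union_le _ _ _)
      by_cases h : t ∈ RV n p F
      · exact Or.inl ⟨ht, h⟩
      · exact Or.inr h
    rw [setLIntegral_measure_zero _ _ hnull, add_zero] at h1
    refine h1.trans ?_
    have h2 : ∫⁻ t in ball (0 : Cm q) R ∩ RV n p F, sS n p F N h t ≤
        ∫⁻ t in ball (0 : Cm q) R ∩ RV n p F, (4 * ENNReal.ofReal ((1 + R) ^ k)) *
          (sumR F N (fun z => ENNReal.ofReal (‖h z‖ ^ 2)) t * W t) := by
      refine setLIntegral_mono' (measurableSet_ball.inter hVo.measurableSet) fun t ht => ?_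
      rw [sS, if_pos ht.2]
      set A := sumR F N (fun z => ENNReal.ofReal (‖h z‖ ^ 2)) t
      have h3 : (1 : ℝ≥0∞) ≤ ENNReal.ofReal ((1 + R) ^ k) * ENNReal.ofReal (((1 + ‖t‖) ^ k)⁻¹) := by
        rw [← ENNReal.ofReal_mul (by positivity), ← ENNReal.ofReal_one]
        refine ENNReal.ofReal_le_ofReal ?_
        rw [← div_eq_mul_inv, le_div_iff₀ (by positivity), one_mul]
        refine pow_le_pow_left₀ (by positivity) ?_ k
        have := mem_ball_zero_iff.1 ht.1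
        linarith
      calc 4 * A = 4 * A * 1 := by rw [mul_one]
        _ ≤ 4 * A * (ENNReal.ofReal ((1 + R) ^ k) * ENNReal.ofReal (((1 + ‖t‖) ^ k)⁻¹)) :=
            mul_le_mul_right h3 _
        _ = _ := by rw [hW]; ring
    refine h2.trans ?_
    rw [lintegral_const_mul' _ _ (ENNReal.mul_ne_top (by simp) ENNReal.ofReal_ne_top)]
    calc _ ≤ 4 * ENNReal.ofReal ((1 + R) ^ k) * I :=
          mul_le_mul_right (lintegral_mono_set fun t ht => ht.2) _
      _ = _ := by ring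
  have hP : (4 : ℝ≥0∞) * I ≠ ⊤ := ENNReal.mul_ne_top (by simp) hIt
  obtain ⟨hS, hgr⟩ := ext_main hw hq hp hA hex hVo hVc hl0 hle hsm hs1 hP hsi
  -- representatives over `F y`
  obtain ⟨r, hr⟩ := hN _ hyR
  have hN0 : N ≠ 0 := by
    rintro rfl
    obtain ⟨j, -⟩ := hr.all y rfl
    exact j.elim0
  obtain ⟨N', rfl⟩ : ∃ N', N = N' + 1 := ⟨N - 1, by omega⟩
  refine ⟨hext (RV n p F) F h₀, ⟨hS, ?_, ⟨k, hgr⟩, ⟨N', r, fun i => hyR _ (hr.fib i), ?_⟩, ?_⟩⟩
  · intro g hg z _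
    rw [hinj g hg, one_smul]
  · intro g
    have h1 := hr.smul hp hA g
    have h2 : F y + c g ∈ RV n p F := by
      intro z hz
      have h3 : F (g⁻¹ • z) = F y := by
        rw [hA.equiv, hz, per_inv hA]
        abel
      exact (per_reg_iff hp hA).1 (hyR _ h3)
    have h3 : ∀ i, hext (RV n p F) F h₀ (g • r i) = h (g • r i) - avg F (N' + 1) h (F y + c g) := by
      intro i
      have h4 : F (g • r i) = F y + c g := h1.fib i
      rw [hext_eq (by rw [h4]; exact h2), hh₀]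
      simp only
      rw [h4]
    simp only [h3]
    rw [Finset.sum_sub_distrib, Finset.sum_const, Finset.card_univ, Fintype.card_fin, avg,
      hloc.sum_eq h2 h1 (fun a => a), nsmul_eq_mul, mul_inv_cancel_left₀ (by exact_mod_cast hN0),
      sub_self]
  · by_contra hcon
    push Not at hcon
    have h1 := hcon y (hyR y rfl)
    have h2 := hcon y' (hyR y' hyy)
    rw [hext_eq hyR, hh₀] at h1
    rw [hext_eq (by rw [hyy]; exact hyR), hh₀] at h2
    simp only at h1 h2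
    rw [hyy] at h2
    exact hne ((sub_eq_zero.1 h1).trans (sub_eq_zero.1 h2).symm)

end Vale.Agent.P284.H136.K9
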